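/-
Row 211, cluster B (S0326), helper21: the cost half of the local patch lemma.
Lattice squares whose centres lie within `C * ℓ` of a compact set `D'` cost at most
`∫_{D'} F + 2 θ vol(D') + ε` once the mesh `ℓ` is small (`θ` = oscillation of `F` near `D'`).
-/
import Crest.Agent.Helper21.Ruled.Packing

set_option autoImplicit false
open MeasureTheory

namespace Crest.Agent.Helper21

/-- The volume of small closed thickenings of a compact set exceeds its volume by at most `η`. -/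
theorem volume_cthickening_le (D : Set E2) (hD : IsCompact D) (η : ℝ) (hη : 0 < η) :
    ∃ r₀ > 0, ∀ r ≤ r₀,
      (volume (Metric.cthickening r D)).toReal ≤ (volume D).toReal + η := by
  have h := tendsto_measure_cthickening_of_isCompact (μ := (volume : Measure E2)) hD
  have hfin : volume D ≠ ⊤ := hD.measure_lt_top.ne
  have h2 : Filter.Tendsto (fun r => (volume (Metric.cthickening r D)).toReal) (nhds 0)
      (nhds (volume D).toReal) := (ENNReal.tendsto_toReal hfin).comp h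
  have h3 : ∀ᶠ r in nhds (0:ℝ),
      (volume (Metric.cthickening r D)).toReal < (volume D).toReal + η :=
    h2.eventually (gt_mem_nhds (by linarith))
  obtain ⟨e, he, hball⟩ := Metric.eventually_nhds_iff.mp h3
  refine ⟨e / 2, by positivity, fun r hr => ?_⟩
  have hmono : volume (Metric.cthickening r D) ≤ volume (Metric.cthickening (e / 2) D) :=
    measure_mono (Metric.cthickening_mono hr D)
  have hfin2 : volume (Metric.cthickening (e / 2) D) ≠ ⊤ :=
    (hD.isBounded.cthickening.measure_lt_top).ne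
  have h5 := ENNReal.toReal_mono hfin2 hmono
  have h4 := hball (y := e / 2) (by
    rw [Real.dist_eq, sub_zero, abs_of_pos (by positivity)]; linarith)
  linarith

/-- **Cost half of the local patch lemma.** -/
theorem local_cost (v w : E2) (hv : ‖v‖ = 1) (hw : ‖w‖ = 1) (hvw : inner ℝ v w = 0) (p₀ : E2)
    (D' : Set E2) (hD' : IsCompact D') (F : E2 → ℝ) (hFc : ContinuousOn F D')
    (hF0 : ∀ z, 0 ≤ F z) (hF1 : ∀ z, F z ≤ 1) (θ ρ : ℝ) (hθ : 0 ≤ θ) (hρ : 0 < ρ)
    (hosc : ∀ z, (∃ q ∈ D', dist z q ≤ ρ) → ∀ q ∈ D', |F z - F q| ≤ θ)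
    (C : ℝ) (hC : 0 ≤ C) (ε : ℝ) (hε : 0 < ε) :
    ∃ ℓ₀ > 0, ∀ ℓ : ℝ, 0 < ℓ → ℓ ≤ ℓ₀ → ∀ I : Finset (ℤ × ℤ),
      (∀ ij ∈ I, ∃ q ∈ D', dist (p₀ + (ℓ * ij.1) • v + (ℓ * ij.2) • w) q ≤ C * ℓ) →
      ∑ ij ∈ I, ℓ ^ 2 * F (p₀ + (ℓ * ij.1) • v + (ℓ * ij.2) • w)
        ≤ (∫ p in D', F p) + 2 * θ * (volume D').toReal + ε := by
  rcases D'.eq_empty_or_nonempty with hemp | ⟨q₀, hq₀⟩
  · refine ⟨1, one_pos, fun ℓ hℓ _ I hI => ?_⟩
    have hIe : I = ∅ := by
      apply Finset.eq_empty_of_forall_notMem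
      intro ij hij
      obtain ⟨q, hq, _⟩ := hI ij hij
      rw [hemp] at hq; exact hq
    subst hemp
    rw [hIe]
    simpa using hε.le
  · set m := F q₀ with hm
    obtain ⟨r₀, hr₀, hvol⟩ := volume_cthickening_le D' hD' (ε / (1 + θ)) (by positivity)
    refine ⟨min (ρ / (C + 1)) (r₀ / (C + 1)), by positivity, fun ℓ hℓ hℓ₀ I hI => ?_⟩
    have hℓ1 : ℓ ≤ ρ / (C + 1) := le_trans hℓ₀ (min_le_left _ _)
    have hℓ2 : ℓ ≤ r₀ / (C + 1) := le_trans hℓ₀ (min_le_right _ _)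
    have hCℓρ : C * ℓ ≤ ρ := by
      have : ℓ * (C + 1) ≤ ρ := by rwa [le_div_iff₀ (by positivity)] at hℓ1
      nlinarith
    have hCℓr : C * ℓ + ℓ ≤ r₀ := by
      have : ℓ * (C + 1) ≤ r₀ := by rwa [le_div_iff₀ (by positivity)] at hℓ2
      nlinarith
    have hterm : ∀ ij ∈ I,
        ℓ ^ 2 * F (p₀ + (ℓ * ij.1) • v + (ℓ * ij.2) • w) ≤ ℓ ^ 2 * (m + θ) := by
      intro ij hij
      obtain ⟨q, hq, hd⟩ := hI ij hij
      have h1 := hosc _ ⟨q, hq, le_trans hd hCℓρ⟩ q₀ hq₀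
      have h2 := (abs_le.mp h1).2
      have hℓ2 : 0 ≤ ℓ ^ 2 := by positivity
      apply mul_le_mul_of_nonneg_left _ hℓ2
      linarith
    have hsum : ∑ ij ∈ I, ℓ ^ 2 * F (p₀ + (ℓ * ij.1) • v + (ℓ * ij.2) • w)
        ≤ (I.card : ℝ) * ℓ ^ 2 * (m + θ) := by
      calc _ ≤ ∑ ij ∈ I, ℓ ^ 2 * (m + θ) := Finset.sum_le_sum hterm
        _ = (I.card : ℝ) * ℓ ^ 2 * (m + θ) := by rw [Finset.sum_const, nsmul_eq_mul]; ring
    have hpack := packing_real v w hv hw hvw p₀ ℓ hℓ D' hD'.isBounded (C * ℓ) (by positivity) I hI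
    have hvolb := hvol (C * ℓ + ℓ) hCℓr
    have hint : (m - θ) * (volume D').toReal ≤ ∫ p in D', F p := by
      have h1 := setIntegral_ge_of_const_le_real (μ := volume) (f := F) (c := m - θ)
        hD'.measurableSet hD'.measure_lt_top.ne (fun x hx => by
          have h2 := hosc q₀ ⟨q₀, hq₀, by simpa using hρ.le⟩ x hx
          have h3 := (abs_le.mp h2).2
          linarith) (hFc.integrableOn_compact hD')
      simpa [Measure.real] using h1
    have hm0 : 0 ≤ m := hF0 q₀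
    have hm1 : m ≤ 1 := hF1 q₀
    have hV0 : 0 ≤ (volume D').toReal := ENNReal.toReal_nonneg
    have hε1 : (m + θ) * (ε / (1 + θ)) ≤ ε := by
      have h1 : (m + θ) / (1 + θ) ≤ 1 := by rw [div_le_one (by positivity)]; linarith
      calc (m + θ) * (ε / (1 + θ)) = (m + θ) / (1 + θ) * ε := by ring
        _ ≤ 1 * ε := by gcongr
        _ = ε := one_mul ε
    calc _ ≤ (I.card : ℝ) * ℓ ^ 2 * (m + θ) := hsum
      _ ≤ ((volume D').toReal + ε / (1 + θ)) * (m + θ) :=
          mul_le_mul_of_nonneg_right (le_trans hpack hvolb) (by linarith)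
      _ = (m - θ) * (volume D').toReal + 2 * θ * (volume D').toReal
            + (m + θ) * (ε / (1 + θ)) := by ring
      _ ≤ _ := by linarith

end Crest.Agent.Helper21
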