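/-
Row 211, cluster B (S0326), helper21: THICK — volumes of closed thickenings of compact sets,
in the shapes requested by the S0326 owner (helper10, post #371).
-/
import Crest.Agent.Helper21.Ruled.Cost

set_option autoImplicit false
open MeasureTheory

namespace Crest.Agent.Helper21

theorem volume_cthickening_lt_top (D' : Set E2) (hD' : IsCompact D') (ρ : ℝ) :
    volume (Metric.cthickening ρ D') < ⊤ :=
  hD'.isBounded.cthickening.measure_lt_top

theorem exists_cthickening_le (D' : Set E2) (hD' : IsCompact D') (η : ℝ) (hη : 0 < η) :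
    ∃ r₀ > 0, ∀ r, 0 ≤ r → r ≤ r₀ →
      (volume (Metric.cthickening r D')).toReal ≤ (volume D').toReal + η := by
  obtain ⟨r₀, hr₀, h⟩ := volume_cthickening_le D' hD' η hη
  exact ⟨r₀, hr₀, fun r _ hr => h r hr⟩

theorem exists_thickening_small (D : Set E2) (hD : IsCompact D) (ε : ℝ) (hε : 0 < ε) :
    ∃ ρ₀ > 0, ∀ ρ, 0 ≤ ρ → ρ ≤ ρ₀ →
      (volume (Metric.cthickening ρ D \ D)).toReal ≤ ε := by
  obtain ⟨r₀, hr₀, h⟩ := volume_cthickening_le D hD ε hε
  refine ⟨r₀, hr₀, fun ρ _ hρ => ?_⟩
  have h1 := h ρ hρ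
  have hsub : D ⊆ Metric.cthickening ρ D := Metric.self_subset_cthickening D
  have hfinD : volume D ≠ ⊤ := hD.measure_lt_top.ne
  have hfin : volume (Metric.cthickening ρ D) ≠ ⊤ := (volume_cthickening_lt_top D hD ρ).ne
  have h2 : volume (Metric.cthickening ρ D \ D)
      = volume (Metric.cthickening ρ D) - volume D :=
    measure_sdiff hsub hD.measurableSet.nullMeasurableSet hfinD
  rw [h2, ENNReal.toReal_sub_of_le (measure_mono hsub) hfin]
  linarith

end Crest.Agent.Helper21
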